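import Vale.Agent.P086.H677.Main
import Vale.Agent.P086.FF.RankSt

/-!
The free group factors over all sets of generators: complete classification up to
`*`-isomorphism, free products with arbitrary groups, and free generating pairs near two given
generators.
-/

namespace Vale.Agent.Results.P086.AllRanks

open Vale.Agent.P086

theorem result :
    -- Q1: `L(F_m) ≅ L(F_n)` for all `2 ≤ m, n ≤ ∞`
    (∀ m n : ℕ, 2 ≤ m → 2 ≤ n → FF.Isomorphic (FreeGroup (Fin m)) (FreeGroup (Fin n))) ∧
    (∀ n : ℕ, 2 ≤ n → FF.Isomorphic (FreeGroup (Fin n)) (FreeGroup ℕ)) ∧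
    -- classification over all sets of generators, of any cardinality
    (∀ (α β : Type) [Nontrivial α] [Nontrivial β],
      FF.Isomorphic (FreeGroup α) (FreeGroup β) ↔
        (Cardinal.mk α = Cardinal.mk β ∨ (Countable α ∧ Countable β))) ∧
    -- free products with an arbitrary group
    (∀ (G : Type) [Group G] (α β : Type) [Countable α] [Countable β] [Nontrivial α]
      [Nontrivial β],
      FF.Isomorphic (Monoid.Coprod G (FreeGroup α)) (Monoid.Coprod G (FreeGroup β))) ∧
    -- free generating pairs near two letters
    (∀ (α : Type) [Countable α] (a b : α), a ≠ b → ∀ ε : ℝ, 0 < ε →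
      H677.HasPairNear a b ε) := by
  refine ⟨?_, ?_, fun α β _ _ => H677.classification α β, fun G _ α β _ _ _ _ =>
    H677.isomorphic_of_spIso (H677.spIso_coprod_free G α β),
    fun α _ a b hab ε hε => H677.hasPairNear hab ε hε⟩
  · intro m n hm hn
    have h1 : Nontrivial (Fin m) := Fin.nontrivial_iff_two_le.2 hm
    have h2 : Nontrivial (Fin n) := Fin.nontrivial_iff_two_le.2 hn
    exact H677.isomorphic_of_spIso (spIso_all (Fin m) (Fin n))
  · intro n hn
    have h2 : Nontrivial (Fin n) := Fin.nontrivial_iff_two_le.2 hn
    exact H677.isomorphic_of_spIso (spIso_all (Fin n) ℕ)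

end Vale.Agent.Results.P086.AllRanks
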