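import Vale.Agent.P086.H837.Main

/-!
The free group factors are isomorphic; graph products, right-angled Artin groups, semidirect
products and amalgams of groups with isomorphic von Neumann algebras.
-/

namespace Vale.Agent.Results.P086.GraphProducts

open Vale.Agent.P086.H837

theorem result :
    -- (1) Q1: `L(F_m) ≅ L(F_n)` for all `2 ≤ m, n ≤ ∞`
    (∀ m n : ℕ, 2 ≤ m → 2 ≤ n → StarIso (FreeGroup (Fin m)) (FreeGroup (Fin n))) ∧
    (∀ n : ℕ, 2 ≤ n → StarIso (FreeGroup (Fin n)) (FreeGroup ℕ)) ∧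
    -- (2) trace preserving isomorphisms
    (∀ (α β : Type) [Countable α] [Countable β] [Nontrivial α] [Nontrivial β],
      TraceIso (FreeGroup α) (FreeGroup β)) ∧
    -- (3) graph products exist and respect trace preserving isomorphisms of the `L(G v)`
    (∀ (V : Type) (Γ : SimpleGraph V) (G : V → Type) [∀ v, Group (G v)],
      ∃ (P : Type) (_ : Group P) (ι : ∀ v, G v →* P), IsGraphProduct Γ ι) ∧
    (∀ (V : Type) (Γ : SimpleGraph V) (G G' : V → Type) [∀ v, Group (G v)] [∀ v, Group (G' v)]
      (P P' : Type) [Group P] [Group P'] (ι : ∀ v, G v →* P) (ι' : ∀ v, G' v →* P'),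
      IsGraphProduct Γ ι → IsGraphProduct Γ ι' → (∀ v, TraceIso (G v) (G' v)) →
      TraceIso P P') ∧
    -- (4) right-angled Artin groups
    (∀ (V : Type) (Γ : SimpleGraph V) (α β : V → Type),
      (∀ v, Nonempty (α v ≃ β v) ∨
        (Countable (α v) ∧ Countable (β v) ∧ Nontrivial (α v) ∧ Nontrivial (β v))) →
      TraceIso (Artin (blowUp Γ α)) (Artin (blowUp Γ β))) ∧
    -- (5) groups acting on graph products of copies of one group by permuting the copies
    (∀ (V K : Type) (Γ : SimpleGraph V) [Group K] [MulAction K V] (F F' P P' : Type) [Group F]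
      [Group F'] [Group P] [Group P'] (ι : V → F →* P) (ι' : V → F' →* P')
      (φ : K →* MulAut P) (φ' : K →* MulAut P'),
      IsGraphProduct Γ ι → IsGraphProduct Γ ι' → PermutesCopies ι φ → PermutesCopies ι' φ' →
      TraceIso F F' →
      TraceIso (P ⋊[φ] K) (P' ⋊[φ'] K)) ∧
    -- (6) amalgamated free products
    (∀ (K : Type) [Group K] (H : Subgroup K) (F F' : Type) [Group F] [Group F'],
      TraceIso F F' → TraceIso (Amalgam K H F) (Amalgam K H F')) := by
  refine ⟨fun m n hm hn => ?_, fun n hn => ?_, fun α β _ _ _ _ => traceIso_free α β,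
    fun V Γ G _ => exists_graphProduct V Γ G,
    fun V Γ G G' _ _ P P' _ _ ι ι' hι hι' h => traceIso_graph V Γ G G' P P' ι ι' hι hι' h,
    fun V Γ α β h => traceIso_artin V Γ α β h,
    fun V K Γ _ _ F F' P P' _ _ _ _ ι ι' φ φ' hι hι' hφ hφ' h =>
      traceIso_graphSemi V K Γ F F' P P' ι ι' φ φ' hι hι' hφ hφ' h,
    fun K _ H F F' _ _ h => traceIso_amalgam K H F F' h⟩
  · have h1 : Nontrivial (Fin m) := Fin.nontrivial_iff_two_le.2 hm
    have h2 : Nontrivial (Fin n) := Fin.nontrivial_iff_two_le.2 hn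
    exact starIso_free (Fin m) (Fin n)
  · have h2 : Nontrivial (Fin n) := Fin.nontrivial_iff_two_le.2 hn
    exact starIso_free (Fin n) ℕ

end Vale.Agent.Results.P086.GraphProducts
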